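import Vale.Agent.P012.MathlibUsed

namespace Vale.Agent.P012

/-- The finite set `s` consists of integers greater than `M` whose reciprocals sum to `a/b`. -/
def IsExpansionAbove (M a b : ℕ) (s : Finset ℕ) : Prop :=
  (∀ n ∈ s, M < n) ∧ ∑ n ∈ s, (1 : ℚ) / n = (a : ℚ) / b

/-- `N_M(a,b)`: the least number of terms in an expansion of `a/b` into distinct unit fractions
with denominators greater than `M`. -/
noncomputable def numTermsAbove (M a b : ℕ) : ℕ :=
  sInf {k : ℕ | ∃ s : Finset ℕ, s.card = k ∧ IsExpansionAbove M a b s}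

/-- `N_{M,K}(b)`: the maximum of `N_M(a,b)` over `1 ≤ a ≤ K b`. -/
noncomputable def maxTermsAbove (M K b : ℕ) : ℕ :=
  (Finset.Icc 1 (K * b)).sup (fun a => numTermsAbove M a b)

end Vale.Agent.P012
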