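import Mathlib.Analysis.PSeries
import Vale.Agent.P012.Bdl.B1
import Vale.Agent.P012.H648.Defs

namespace Vale.Agent.P012

open Finset Filter

/-- Splitting the largest denominator: one more term. -/
theorem lengthen_one {m : ℕ} (hm : 2 ≤ m) {s : Finset ℕ} (hs : s.Nonempty)
    (hms : ∀ n ∈ s, m ≤ n) :
    ∃ t : Finset ℕ, t.card = s.card + 1 ∧ (∀ n ∈ t, m ≤ n) ∧
      ∑ n ∈ t, (1 : ℚ) / n = ∑ n ∈ s, (1 : ℚ) / n := by
  classical
  set N := s.max' hs with hN
  have hNs : N ∈ s := s.max'_mem hs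
  have hN2 : 2 ≤ N := hm.trans (hms N hNs)
  have hmax : ∀ n ∈ s, n ≤ N := fun n hn => s.le_max' n hn
  have hne : N + 1 ≠ N * (N + 1) := by
    intro h
    have : N * (N + 1) ≥ 2 * (N + 1) := Nat.mul_le_mul_right _ hN2
    omega
  have h1 : N + 1 ∉ s.erase N := by
    intro h
    have := hmax _ (Finset.mem_of_mem_erase h)
    omega
  have h2 : N * (N + 1) ∉ insert (N + 1) (s.erase N) := by
    intro h
    rcases Finset.mem_insert.1 h with h | h
    · exact hne h.symm
    · have h3 := hmax _ (Finset.mem_of_mem_erase h)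
      have : N * (N + 1) ≥ 2 * (N + 1) := Nat.mul_le_mul_right _ hN2
      omega
  refine ⟨insert (N * (N + 1)) (insert (N + 1) (s.erase N)), ?_, ?_, ?_⟩
  · rw [Finset.card_insert_of_notMem h2, Finset.card_insert_of_notMem h1,
      Finset.card_erase_of_mem hNs]
    have : 0 < s.card := Finset.card_pos.2 hs
    omega
  · intro n hn
    have hmN : m ≤ N := hms N hNs
    rcases Finset.mem_insert.1 hn with h | h
    · have : N * (N + 1) ≥ 2 * (N + 1) := Nat.mul_le_mul_right _ hN2
      omega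
    · rcases Finset.mem_insert.1 h with h | h
      · omega
      · exact hms n (Finset.mem_of_mem_erase h)
  · rw [Finset.sum_insert h2, Finset.sum_insert h1, ← Finset.add_sum_erase s _ hNs, ← add_assoc]
    congr 1
    have hN0 : (N : ℚ) ≠ 0 := by
      have : N ≠ 0 := by omega
      exact_mod_cast this
    have hN1 : (N : ℚ) + 1 ≠ 0 := by positivity
    push_cast
    field_simp
    ring

theorem lengthen {m : ℕ} (hm : 2 ≤ m) {s : Finset ℕ} (hs : s.Nonempty)
    (hms : ∀ n ∈ s, m ≤ n) (j : ℕ) :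
    ∃ t : Finset ℕ, t.card = s.card + j ∧ (∀ n ∈ t, m ≤ n) ∧
      ∑ n ∈ t, (1 : ℚ) / n = ∑ n ∈ s, (1 : ℚ) / n := by
  induction j with
  | zero => exact ⟨s, rfl, hms, rfl⟩
  | succ j ih =>
    obtain ⟨t, h1, h2, h3⟩ := ih
    have ht : t.Nonempty := by
      rw [← Finset.card_pos, h1]
      have := Finset.card_pos.2 hs
      omega
    obtain ⟨u, h4, h5, h6⟩ := lengthen_one hm ht h2
    exact ⟨u, by omega, h5, h6.trans h3⟩

/-- Harmonic blocks: a rational `x ≥ 0` below the sum of `1/n`, `m ≤ n < M`, is a block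
`m, …, j - 1` plus a remainder in `[0, 1/j)`. -/
theorem exists_block {m M : ℕ} {x : ℚ} (hx : 0 ≤ x)
    (hM : x < ∑ n ∈ Finset.Ico m M, (1 : ℚ) / n) :
    ∃ j, m ≤ j ∧ ∑ n ∈ Finset.Ico m j, (1 : ℚ) / n ≤ x ∧
      x < ∑ n ∈ Finset.Ico m j, (1 : ℚ) / n + 1 / j := by
  classical
  have hmM : m < M := by
    by_contra h
    rw [Finset.Ico_eq_empty (by omega), Finset.sum_empty] at hM
    exact absurd hM (not_lt.2 hx)
  have hex : ∃ i, x < ∑ n ∈ Finset.Ico m (m + i), (1 : ℚ) / n :=
    ⟨M - m, by rw [Nat.add_sub_cancel' hmM.le]; exact hM⟩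
  set i := Nat.find hex with hi
  have hi1 := Nat.find_spec hex
  have hi0 : i ≠ 0 := by
    intro h0
    have : x < ∑ n ∈ Finset.Ico m (m + i), (1 : ℚ) / n := hi1
    rw [h0, add_zero, Finset.Ico_self, Finset.sum_empty] at this
    exact absurd this (not_lt.2 hx)
  obtain ⟨i', hi'⟩ := Nat.exists_eq_succ_of_ne_zero hi0
  have hlt : i' < i := by omega
  have h2 := not_lt.1 (Nat.find_min hex hlt)
  refine ⟨m + i', by omega, h2, ?_⟩
  have h3 : x < ∑ n ∈ Finset.Ico m (m + i), (1 : ℚ) / n := hi1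
  rw [hi', Nat.succ_eq_add_one, ← add_assoc, Finset.sum_Ico_succ_top (by omega)] at h3
  exact h3

/-- The harmonic series diverges: blocks starting at `m` exceed any bound. -/
theorem exists_block_gt (m : ℕ) (x : ℚ) : ∃ M : ℕ, x < ∑ n ∈ Finset.Ico m M, (1 : ℚ) / n := by
  have hdiv : Tendsto (fun n : ℕ => ∑ i ∈ Finset.range n, (1 : ℝ) / i) atTop atTop := by
    have := Real.tendsto_sum_range_one_div_nat_succ_atTop
    rw [← tendsto_add_atTop_iff_nat 1]
    refine this.congr (fun n => ?_)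
    rw [Finset.sum_range_succ']
    simp
  obtain ⟨M, hM⟩ := (hdiv.eventually_gt_atTop
    ((max x 0 : ℚ) + ∑ i ∈ Finset.range m, (1 : ℝ) / i)).exists
  refine ⟨M, ?_⟩
  have hx0 : (0 : ℝ) ≤ (max x 0 : ℚ) := by exact_mod_cast le_max_right x 0
  have hmM : m ≤ M := by
    by_contra h
    have h1 : ∑ i ∈ Finset.range M, (1 : ℝ) / i ≤ ∑ i ∈ Finset.range m, (1 : ℝ) / i :=
      Finset.sum_le_sum_of_subset_of_nonneg (Finset.range_mono (by omega))
        (fun i _ _ => by positivity)
    linarith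
  have h2 : ∑ n ∈ Finset.Ico m M, (1 : ℝ) / n =
      ∑ i ∈ Finset.range M, (1 : ℝ) / i - ∑ i ∈ Finset.range m, (1 : ℝ) / i :=
    Finset.sum_Ico_eq_sub _ hmM
  have h3 : ((max x 0 : ℚ) : ℝ) < ∑ n ∈ Finset.Ico m M, (1 : ℝ) / n := by rw [h2]; linarith
  have h4 : (((∑ n ∈ Finset.Ico m M, (1 : ℚ) / n : ℚ)) : ℝ) = ∑ n ∈ Finset.Ico m M, (1 : ℝ) / n := by
    push_cast
    rfl
  rw [← h4] at h3
  have h5 : max x 0 < ∑ n ∈ Finset.Ico m M, (1 : ℚ) / n := by exact_mod_cast h3
  exact (le_max_left _ _).trans_lt h5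

/-- Lower bound for harmonic blocks. -/
theorem log_le_block {m j : ℕ} (hm : 1 ≤ m) (hmj : m ≤ j) :
    Real.log j - Real.log m ≤ ∑ n ∈ Finset.Ico m j, (1 : ℝ) / n := by
  induction j, hmj using Nat.le_induction with
  | base => simp
  | succ j hmj ih =>
    rw [Finset.sum_Ico_succ_top hmj]
    have hj : (0 : ℝ) < j := by
      have : 0 < j := by omega
      exact_mod_cast this
    have h1 : Real.log ((j + 1 : ℕ) : ℝ) - Real.log j ≤ 1 / j := by
      rw [← Real.log_div (by positivity) hj.ne']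
      have h2 := Real.log_le_sub_one_of_pos (x := ((j + 1 : ℕ) : ℝ) / j) (by positivity)
      refine h2.trans (le_of_eq ?_)
      push_cast
      field_simp
      ring
    linarith

/-- Upper bound for harmonic blocks. -/
theorem block_le_log {m : ℕ} (hm : 1 ≤ m) (k : ℕ) :
    ∑ n ∈ Finset.Ico (m + 1) (m + 1 + k), (1 : ℝ) / n ≤ Real.log ((m + k : ℕ) : ℝ) - Real.log m := by
  induction k with
  | zero => simp
  | succ k ih =>
    rw [← add_assoc (m + 1) k 1, Finset.sum_Ico_succ_top (by omega)]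
    have hj : (0 : ℝ) < ((m + k : ℕ) : ℝ) := by
      have : 0 < m + k := by omega
      exact_mod_cast this
    have h1 : (1 : ℝ) / ((m + 1 + k : ℕ) : ℝ) ≤
        Real.log ((m + (k + 1) : ℕ) : ℝ) - Real.log ((m + k : ℕ) : ℝ) := by
      have hj1 : (0 : ℝ) < ((m + (k + 1) : ℕ) : ℝ) := by push_cast at hj ⊢; linarith
      have h2 := Real.log_le_sub_one_of_pos
        (x := ((m + k : ℕ) : ℝ) / ((m + (k + 1) : ℕ) : ℝ)) (by positivity)
      rw [Real.log_div hj.ne' hj1.ne'] at h2
      have h3 : ((m + k : ℕ) : ℝ) / ((m + (k + 1) : ℕ) : ℝ) - 1 =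
          - (1 / ((m + 1 + k : ℕ) : ℝ)) := by
        push_cast at hj1 ⊢
        have h4 : (m : ℝ) + 1 + k = m + (k + 1) := by ring
        rw [h4]
        field_simp
        ring
      rw [h3] at h2
      linarith
    linarith

/-- Among the sets of `k` integers greater than `M`, the block `M + 1, …, M + k` has the largest
sum of reciprocals. -/
theorem sum_le_block (M k : ℕ) : ∀ s : Finset ℕ, s.card = k → (∀ n ∈ s, M < n) →
    ∑ n ∈ s, (1 : ℝ) / n ≤ ∑ n ∈ Finset.Ico (M + 1) (M + 1 + k), (1 : ℝ) / n := by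
  classical
  induction k with
  | zero =>
    intro s hs _
    rw [Finset.card_eq_zero] at hs
    subst hs
    simp
  | succ k ih =>
    intro s hs hM
    have hne : s.Nonempty := by
      rw [← Finset.card_pos]; omega
    set N := s.max' hne with hN
    have hNs : N ∈ s := s.max'_mem hne
    have hcard : (s.erase N).card = k := by
      rw [Finset.card_erase_of_mem hNs]; omega
    have h1 := ih (s.erase N) hcard (fun n hn => hM n (Finset.mem_of_mem_erase hn))
    have hsub : s ⊆ Finset.Ioc M N := fun n hn =>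
      Finset.mem_Ioc.2 ⟨hM n hn, s.le_max' n hn⟩
    have h2 := Finset.card_le_card hsub
    rw [Nat.card_Ioc, hs] at h2
    have hMN := hM N hNs
    have h3 : (1 : ℝ) / N ≤ 1 / ((M + 1 + k : ℕ) : ℝ) := by
      apply one_div_le_one_div_of_le
      · positivity
      · have : M + 1 + k ≤ N := by omega
        exact_mod_cast this
    rw [← Finset.add_sum_erase s _ hNs, ← add_assoc (M + 1) k 1,
      Finset.sum_Ico_succ_top (by omega)]
    linarith

theorem cast_sum_one_div (s : Finset ℕ) :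
    (((∑ n ∈ s, (1 : ℚ) / n : ℚ)) : ℝ) = ∑ n ∈ s, (1 : ℝ) / n := by
  push_cast
  rfl

/-- The pointwise lower bound. -/
theorem lower_card {M a b : ℕ} {s : Finset ℕ} (hs : IsExpansionAbove M a b s) :
    (M : ℝ) * (Real.exp ((a : ℝ) / b) - 1) ≤ s.card := by
  rcases Nat.eq_zero_or_pos M with h0 | hM
  · subst h0
    simp
  have h1 := sum_le_block M s.card s rfl hs.1
  have h2 := block_le_log (m := M) hM s.card
  have h3 : (a : ℝ) / b = ∑ n ∈ s, (1 : ℝ) / n := by
    rw [← cast_sum_one_div, hs.2]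
    push_cast
    rfl
  rw [← h3] at h1
  have hMR : (0 : ℝ) < M := by exact_mod_cast hM
  have hMk : (0 : ℝ) < ((M + s.card : ℕ) : ℝ) := by push_cast; positivity
  have h4 : (a : ℝ) / b ≤ Real.log (((M + s.card : ℕ) : ℝ) / M) := by
    rw [Real.log_div hMk.ne' hMR.ne']
    exact h1.trans h2
  have h5 : Real.exp ((a : ℝ) / b) ≤ ((M + s.card : ℕ) : ℝ) / M := by
    have := Real.exp_le_exp.2 h4
    rwa [Real.exp_log (by positivity)] at this
  rw [le_div_iff₀ hMR] at h5
  push_cast at h5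
  linarith

theorem one_le_log_add_two {b : ℕ} (hb : 1 ≤ b) : 1 ≤ Real.log ((b : ℝ) + 2) := by
  have h1 : Real.exp 1 ≤ (b : ℝ) + 2 := by
    have := Real.exp_one_lt_d9
    have : (1 : ℝ) ≤ b := by exact_mod_cast hb
    linarith
  have := Real.log_le_log (Real.exp_pos 1) h1
  rwa [Real.log_exp] at this

/-- A positive lower bound of `log log (b + 2)`. -/
theorem exists_loglog_ge : ∃ l : ℝ, 0 < l ∧ l ≤ 1 ∧ ∀ b : ℕ, 1 ≤ b →
    l ≤ Real.log (Real.log ((b : ℝ) + 2)) := by
  have h3 : 1 < Real.log 3 := by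
    have h1 : Real.exp 1 < 3 := by
      have := Real.exp_one_lt_d9
      linarith
    have := Real.log_lt_log (Real.exp_pos 1) h1
    rwa [Real.log_exp] at this
  refine ⟨min 1 (Real.log (Real.log 3)), lt_min one_pos (Real.log_pos h3), min_le_left _ _,
    fun b hb => (min_le_right _ _).trans ?_⟩
  have hb' : (1 : ℝ) ≤ b := by exact_mod_cast hb
  exact Real.log_le_log (by linarith) (Real.log_le_log (by norm_num) (by linarith))

/-- The landed upper bound for all denominators. -/
theorem base (H : ∃ C : ℝ, ∃ b₀ : ℕ, ∀ b ≥ b₀, ∀ a : ℕ, a < b →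
      ∃ k : ℕ, (k : ℝ) ≤ C * Real.log (Real.log b) ∧ IsUF k ((a : ℚ) / b)) :
    ∃ C : ℝ, 0 ≤ C ∧ ∀ a b : ℕ, a < b → ∃ k : ℕ,
      (k : ℝ) ≤ C * Real.log (Real.log ((b : ℝ) + 2)) ∧ IsUF k ((a : ℚ) / b) := by
  obtain ⟨C, b₀, H⟩ := H
  obtain ⟨l, hl0, hl1, hl⟩ := exists_loglog_ge
  refine ⟨max C 0 + ((b₀ : ℝ) + 3) / l, by positivity, fun a b hab => ?_⟩
  have hb1 : 1 ≤ b := by omega
  have hL := hl b hb1
  have hL0 : 0 ≤ Real.log (Real.log ((b : ℝ) + 2)) := hl0.le.trans hL
  by_cases hb : b₀ ≤ b ∧ 3 ≤ b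
  · obtain ⟨k, hk, hUF⟩ := H b hb.1 a hab
    refine ⟨k, ?_, hUF⟩
    have hb3 : (3 : ℝ) ≤ b := by exact_mod_cast hb.2
    have h1 : 0 < Real.log (b : ℝ) := Real.log_pos (by linarith)
    have h2 : Real.log (Real.log (b : ℝ)) ≤ Real.log (Real.log ((b : ℝ) + 2)) :=
      Real.log_le_log h1 (Real.log_le_log (by linarith) (by linarith))
    have h3 : 0 ≤ Real.log (Real.log (b : ℝ)) := by
      have h4 : Real.exp 1 ≤ (b : ℝ) := by
        have := Real.exp_one_lt_d9
        linarith
      have h5 := Real.log_le_log (Real.exp_pos 1) h4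
      rw [Real.log_exp] at h5
      exact Real.log_nonneg h5
    have h4 : (k : ℝ) ≤ max C 0 * Real.log (Real.log (b : ℝ)) :=
      hk.trans (mul_le_mul_of_nonneg_right (le_max_left _ _) h3)
    have h5 : max C 0 * Real.log (Real.log (b : ℝ)) ≤
        max C 0 * Real.log (Real.log ((b : ℝ) + 2)) :=
      mul_le_mul_of_nonneg_left h2 (le_max_right _ _)
    have h6 : 0 ≤ ((b₀ : ℝ) + 3) / l * Real.log (Real.log ((b : ℝ) + 2)) := by positivity
    rw [add_mul]
    linarith
  · refine ⟨a, ?_, isUF_self a b (by omega)⟩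
    have h1 : a ≤ b₀ + 3 := by omega
    have h2 : (a : ℝ) ≤ (b₀ : ℝ) + 3 := by exact_mod_cast h1
    have h3 : (b₀ : ℝ) + 3 ≤ ((b₀ : ℝ) + 3) / l * Real.log (Real.log ((b : ℝ) + 2)) := by
      rw [div_mul_eq_mul_div, le_div_iff₀ hl0]
      exact mul_le_mul_of_nonneg_left hL (by positivity)
    have h4 : 0 ≤ max C 0 * Real.log (Real.log ((b : ℝ) + 2)) :=
      mul_nonneg (le_max_right _ _) hL0
    rw [add_mul]
    linarith

theorem prod_Ico_le_pow (m j : ℕ) : ∏ n ∈ Finset.Ico m j, n ≤ j ^ (j - m) := by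
  calc ∏ n ∈ Finset.Ico m j, n ≤ ∏ _n ∈ Finset.Ico m j, j :=
        Finset.prod_le_prod' (fun n hn => (Finset.mem_Ico.1 hn).2.le)
    _ = j ^ (j - m) := by rw [Finset.prod_const, Nat.card_Ico]

/-- The count in the core, as an inequality between real numbers. -/
theorem count_est {C₁ l β L E t lj lB : ℝ} (hC₁ : 0 ≤ C₁) (hl0 : 0 < l) (hβ : 1 ≤ β)
    (hL : L = Real.log β) (hlL : l ≤ L) (hE0 : 0 < E) (ht0 : 0 ≤ t) (htE : t ≤ E)
    (hlj0 : 0 ≤ lj) (hlj : lj ≤ β + E) (hlB0 : 0 < lB) (hlB : lB ≤ β + t * lj) :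
    t + C₁ * Real.log lB ≤ (1 + 2 * C₁ + C₁ / l) * (E + L) := by
  have hβ0 : β ≠ 0 := by positivity
  have hL0 : 0 ≤ L := hl0.le.trans hlL
  have hlog : Real.log lB ≤ L + t + (L + 1 + E) := by
    have h2 : β + t * lj ≤ β * ((1 + t) * (1 + lj)) := by
      have h4 : 0 ≤ t * lj := by positivity
      have h5 : t * lj ≤ β * (t * lj) := le_mul_of_one_le_left h4 hβ
      have h6 : 0 ≤ β * t := by positivity
      have h7 : 0 ≤ β * lj := by positivity
      have h8 : β * ((1 + t) * (1 + lj)) = β + β * t + β * lj + β * (t * lj) := by ring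
      rw [h8]
      linarith
    have h3 : 1 + lj ≤ β * (2 + E) := by
      have h4 : E ≤ β * E := le_mul_of_one_le_left hE0.le hβ
      have h5 : β * (2 + E) = 2 * β + β * E := by ring
      rw [h5]
      linarith
    have h7 := Real.log_le_log hlB0 (hlB.trans h2)
    rw [Real.log_mul hβ0 (by positivity), Real.log_mul (by positivity) (by positivity), ← hL] at h7
    have h8 : Real.log (1 + t) ≤ t := by
      have := Real.log_le_sub_one_of_pos (x := 1 + t) (by positivity)
      linarith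
    have h9 : Real.log (1 + lj) ≤ L + (1 + E) := by
      have h10 := Real.log_le_log (by positivity) h3
      rw [Real.log_mul hβ0 (by positivity), ← hL] at h10
      have h11 := Real.log_le_sub_one_of_pos (x := 2 + E) (by positivity)
      linarith
    linarith
  have h1 : C₁ * Real.log lB ≤ C₁ * (L + t + (L + 1 + E)) :=
    mul_le_mul_of_nonneg_left hlog hC₁
  have h2 : C₁ ≤ C₁ / l * L := by
    rw [div_mul_eq_mul_div, le_div_iff₀ hl0]
    exact mul_le_mul_of_nonneg_left hlL hC₁
  have h3 : C₁ * t ≤ C₁ * E := mul_le_mul_of_nonneg_left htE hC₁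
  have h4 : 0 ≤ C₁ / l * E := by positivity
  have h5 : (1 + 2 * C₁ + C₁ / l) * (E + L) =
      E + 2 * (C₁ * E) + C₁ / l * E + L + 2 * (C₁ * L) + C₁ / l * L := by ring
  rw [h5]
  have h6 : C₁ * (L + t + (L + 1 + E)) = 2 * (C₁ * L) + C₁ * t + C₁ + C₁ * E := by ring
  linarith

/-- The core: the number of distinct unit fractions with denominators greater than `M`. -/
theorem core (H : ∃ C : ℝ, ∃ b₀ : ℕ, ∀ b ≥ b₀, ∀ a : ℕ, a < b →
      ∃ k : ℕ, (k : ℝ) ≤ C * Real.log (Real.log b) ∧ IsUF k ((a : ℚ) / b)) :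
    ∃ C : ℝ, 1 ≤ C ∧ ∀ M a b : ℕ, 1 ≤ M → 1 ≤ a → 1 ≤ b →
      ∃ s : Finset ℕ, s.Nonempty ∧ (s.card : ℝ) ≤
        C * (((M : ℝ) + 1) * (Real.exp ((a : ℝ) / b) - 1) + Real.log (Real.log ((b : ℝ) + 2))) ∧
        IsExpansionAbove M a b s := by
  classical
  obtain ⟨C₁, hC₁, H⟩ := base H
  obtain ⟨l, hl0, hl1, hl⟩ := exists_loglog_ge
  refine ⟨1 + 2 * C₁ + C₁ / l, by
    have : 0 ≤ C₁ / l := by positivity
    linarith, fun M a b hM ha hb => ?_⟩
  have hbQ : (0 : ℚ) < b := by exact_mod_cast hb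
  have hbR : (1 : ℝ) ≤ b := by exact_mod_cast hb
  have haR : (1 : ℝ) ≤ a := by exact_mod_cast ha
  have haQ : (0 : ℚ) < a := by exact_mod_cast ha
  have hx0 : (0 : ℚ) < (a : ℚ) / b := div_pos haQ hbQ
  obtain ⟨Mx, hMx⟩ := exists_block_gt (M + 1) ((a : ℚ) / b)
  obtain ⟨j, hmj, hj1, hj2⟩ := exists_block hx0.le hMx
  set r : ℚ := (a : ℚ) / b - ∑ n ∈ Finset.Ico (M + 1) j, (1 : ℚ) / n with hr
  set D : ℕ := ∏ n ∈ Finset.Ico (M + 1) j, n with hD
  have hr0 : 0 ≤ r := by rw [hr]; linarith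
  have hj0 : 0 < j := by omega
  have hjQ : (0 : ℚ) < j := by exact_mod_cast hj0
  have hjR : (0 : ℝ) < j := by exact_mod_cast hj0
  have hrj : r < 1 / j := by rw [hr]; linarith
  have hlog1 := one_le_log_add_two hb
  have hL := hl b hb
  set L := Real.log (Real.log ((b : ℝ) + 2)) with hLdef
  have hL0 : 0 ≤ L := hl0.le.trans hL
  have hD0 : 0 < D := Finset.prod_pos (fun n hn => by
    have := (Finset.mem_Ico.1 hn).1
    omega)
  -- the remainder over the common denominator
  obtain ⟨a', ha'⟩ : ∃ a' : ℕ, (a' : ℚ) / ((b * D : ℕ) : ℚ) = r := by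
    have hint : ∃ z : ℤ, (z : ℚ) = r * ((b * D : ℕ) : ℚ) := by
      have hblk : ∃ z : ℤ, (z : ℚ) = (∑ n ∈ Finset.Ico (M + 1) j, (1 : ℚ) / n) * (D : ℚ) := by
        refine ⟨((∑ n ∈ Finset.Ico (M + 1) j, D / n : ℕ) : ℤ), ?_⟩
        rw [Int.cast_natCast, Nat.cast_sum, Finset.sum_mul]
        apply Finset.sum_congr rfl
        intro n hn
        have hn' := Finset.mem_Ico.1 hn
        have hn0 : 0 < n := by omega
        have hdvd : n ∣ D := Finset.dvd_prod_of_mem _ hn
        have hnQ : (n : ℚ) ≠ 0 := by exact_mod_cast hn0.ne'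
        rw [Nat.cast_div hdvd hnQ]
        ring
      obtain ⟨z, hz⟩ := hblk
      refine ⟨(a : ℤ) * D - z * b, ?_⟩
      push_cast
      rw [hz, hr]
      field_simp
    obtain ⟨z, hz⟩ := hint
    have hz0 : 0 ≤ z := by
      have : (0 : ℚ) ≤ (z : ℚ) := by rw [hz]; positivity
      exact_mod_cast this
    refine ⟨z.toNat, ?_⟩
    have h1 : ((z.toNat : ℕ) : ℚ) = (z : ℚ) := by
      have : ((z.toNat : ℕ) : ℤ) = z := Int.toNat_of_nonneg hz0
      exact_mod_cast this
    rw [h1, hz]
    have : ((b * D : ℕ) : ℚ) ≠ 0 := by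
      have : 0 < b * D := Nat.mul_pos (by omega) hD0
      exact_mod_cast this.ne'
    field_simp
  have hbD0 : 0 < b * D := Nat.mul_pos (by omega) hD0
  have hr1 : r < 1 := by
    refine hrj.trans_le ?_
    rw [div_le_one hjQ]
    exact_mod_cast hj0
  have ha'lt : a' < b * D := by
    have h1 : (a' : ℚ) / ((b * D : ℕ) : ℚ) < 1 := by rw [ha']; exact hr1
    have h2 : (0 : ℚ) < ((b * D : ℕ) : ℚ) := by exact_mod_cast hbD0
    rw [div_lt_one h2] at h1
    exact_mod_cast h1
  obtain ⟨k, hk, hUF⟩ := H a' (b * D) ha'lt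
  rw [ha'] at hUF
  obtain ⟨S, hS1, hS2, hS3⟩ := IsUF.exists_finset hr1 hUF
  -- the denominators of the remainder exceed `j`
  have hSj : ∀ n ∈ S, j < n := by
    intro n hn
    have hn2 := hS2 n hn
    have hnQ : (0 : ℚ) < n := by
      have : 0 < n := by omega
      exact_mod_cast this
    have h1 : (1 : ℚ) / n ≤ r := by
      rw [← hS3]
      exact Finset.single_le_sum (f := fun n : ℕ => (1 : ℚ) / n) (fun i _ => by positivity) hn
    have h2 : (1 : ℚ) / n < 1 / j := h1.trans_lt hrj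
    rw [one_div_lt_one_div hnQ hjQ] at h2
    exact_mod_cast h2
  have hdisj : Disjoint (Finset.Ico (M + 1) j) S := by
    rw [Finset.disjoint_left]
    intro n hn hnS
    rw [Finset.mem_Ico] at hn
    have := hSj n hnS
    omega
  have hsum : ∑ n ∈ Finset.Ico (M + 1) j ∪ S, (1 : ℚ) / n = (a : ℚ) / b := by
    rw [Finset.sum_union hdisj, hS3, hr]
    ring
  refine ⟨Finset.Ico (M + 1) j ∪ S, ?_, ?_, ?_, hsum⟩
  · rw [Finset.nonempty_iff_ne_empty]
    intro h
    rw [h, Finset.sum_empty] at hsum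
    rw [← hsum] at hx0
    exact lt_irrefl _ hx0
  · -- the count
    set E : ℝ := ((M : ℝ) + 1) * (Real.exp ((a : ℝ) / b) - 1) with hE
    have hMR : (1 : ℝ) ≤ M := by exact_mod_cast hM
    have hxb : (1 : ℝ) / b ≤ (a : ℝ) / b := by gcongr
    have hexp : (a : ℝ) / b ≤ Real.exp ((a : ℝ) / b) - 1 := by
      have := Real.add_one_le_exp ((a : ℝ) / b)
      linarith
    have hxpos : (0 : ℝ) < (a : ℝ) / b := by positivity
    have hE0 : 0 < E := by
      rw [hE]
      have : 0 < Real.exp ((a : ℝ) / b) - 1 := hxpos.trans_le hexp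
      positivity
    -- length of the block
    have hjle : (j : ℝ) ≤ E + ((M : ℝ) + 1) := by
      have h1 := log_le_block (m := M + 1) (j := j) (by omega) hmj
      have h2 : ∑ n ∈ Finset.Ico (M + 1) j, (1 : ℝ) / n ≤ (a : ℝ) / b := by
        rw [← cast_sum_one_div]
        have : (((a : ℚ) / b : ℚ) : ℝ) = (a : ℝ) / b := by push_cast; rfl
        rw [← this]
        exact_mod_cast hj1
      have h3 : Real.log j ≤ (a : ℝ) / b + Real.log ((M + 1 : ℕ) : ℝ) := by linarith
      have h4 := Real.exp_le_exp.2 h3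
      rw [Real.exp_log hjR, Real.exp_add, Real.exp_log (by positivity)] at h4
      push_cast at h4
      have h5 : E + ((M : ℝ) + 1) = Real.exp ((a : ℝ) / b) * ((M : ℝ) + 1) := by rw [hE]; ring
      rw [h5]
      exact h4
    set t : ℕ := j - (M + 1) with ht
    have htR : (t : ℝ) ≤ E := by
      have h1 : (t : ℝ) = j - ((M : ℝ) + 1) := by
        rw [ht, Nat.cast_sub hmj]
        push_cast
        ring
      linarith
    -- size of the new denominator
    have hDle : Real.log D ≤ t * Real.log j := by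
      have h1 : (D : ℝ) ≤ (j : ℝ) ^ t := by exact_mod_cast prod_Ico_le_pow (M + 1) j
      have h2 := Real.log_le_log (by exact_mod_cast hD0) h1
      rwa [Real.log_pow] at h2
    have hj1R : (1 : ℝ) ≤ j := by exact_mod_cast hj0
    have hlogj0 : 0 ≤ Real.log j := Real.log_nonneg hj1R
    have hlogj : Real.log j ≤ Real.log ((b : ℝ) + 2) + E := by
      have h1 : ((M : ℝ) + 1) ≤ b * E := by
        have h2 : ((M : ℝ) + 1) * (1 / b) ≤ E := by
          rw [hE]
          exact mul_le_mul_of_nonneg_left (hxb.trans hexp) (by positivity)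
        have h3 : (b : ℝ) * (((M : ℝ) + 1) * (1 / b)) ≤ b * E :=
          mul_le_mul_of_nonneg_left h2 (by linarith)
        have h4 : (b : ℝ) * (((M : ℝ) + 1) * (1 / b)) = (M : ℝ) + 1 := by
          field_simp
        linarith
      have h2 : (j : ℝ) ≤ ((b : ℝ) + 2) * E := by nlinarith only [hjle, h1, hE0]
      have h3 := Real.log_le_log hjR h2
      rw [Real.log_mul (by positivity) hE0.ne'] at h3
      have h4 := Real.log_le_sub_one_of_pos hE0
      linarith
    have hlB : Real.log (((b * D : ℕ) : ℝ) + 2) ≤ Real.log ((b : ℝ) + 2) + t * Real.log j := by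
      have hDR : (1 : ℝ) ≤ D := by exact_mod_cast hD0
      have h2 : ((b * D : ℕ) : ℝ) + 2 ≤ ((b : ℝ) + 2) * D := by
        push_cast
        nlinarith only [hDR]
      have h3 := Real.log_le_log (by positivity) h2
      rw [Real.log_mul (by positivity) (by positivity)] at h3
      linarith only [h3, hDle]
    have hlB0 : 0 < Real.log (((b * D : ℕ) : ℝ) + 2) := Real.log_pos (by
      have : (0 : ℝ) ≤ ((b * D : ℕ) : ℝ) := Nat.cast_nonneg _
      linarith only [this])
    have hcard : (Finset.Ico (M + 1) j ∪ S).card ≤ t + k := by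
      refine (Finset.card_union_le _ _).trans ?_
      rw [Nat.card_Ico]
      omega
    have hcardR : ((Finset.Ico (M + 1) j ∪ S).card : ℝ) ≤ t + k := by exact_mod_cast hcard
    have hfin := count_est (l := l) hC₁ hl0 hlog1 hLdef hL hE0 (Nat.cast_nonneg t) htR hlogj0 hlogj
      hlB0 hlB
    linarith only [hcardR, hfin, hk]
  · intro n hn
    rcases Finset.mem_union.1 hn with h | h
    · exact (Finset.mem_Ico.1 h).1
    · have := hSj n h
      omega

/-- Every number of terms from the bound on. -/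
theorem all_lengths (H : ∃ C : ℝ, ∃ b₀ : ℕ, ∀ b ≥ b₀, ∀ a : ℕ, a < b →
      ∃ k : ℕ, (k : ℝ) ≤ C * Real.log (Real.log b) ∧ IsUF k ((a : ℚ) / b)) :
    ∃ C : ℝ, 1 ≤ C ∧ ∀ M a b k : ℕ, 1 ≤ a → 1 ≤ b →
      C * (((M : ℝ) + 1) * (Real.exp ((a : ℝ) / b) - 1) + Real.log (Real.log ((b : ℝ) + 2))) ≤ k →
      ∃ s : Finset ℕ, s.card = k ∧ IsExpansionAbove M a b s := by
  classical
  obtain ⟨C, hC, hcore⟩ := core H
  obtain ⟨l, hl0, hl1, hl⟩ := exists_loglog_ge
  refine ⟨2 * C, by linarith, fun M a b k ha hb hk => ?_⟩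
  obtain ⟨s, hs1, hs2, hs3, hs4⟩ := hcore (max M 1) a b (le_max_right _ _) ha hb
  have hL0 : 0 ≤ Real.log (Real.log ((b : ℝ) + 2)) := hl0.le.trans (hl b hb)
  have hx : 0 ≤ Real.exp ((a : ℝ) / b) - 1 := by
    have := Real.add_one_le_exp ((a : ℝ) / b)
    have : (0 : ℝ) ≤ (a : ℝ) / b := by positivity
    linarith
  have hM2 : ((max M 1 : ℕ) : ℝ) + 1 ≤ 2 * ((M : ℝ) + 1) := by
    have : max M 1 + 1 ≤ 2 * (M + 1) := by omega
    exact_mod_cast this
  have hsk : s.card ≤ k := by
    have h1 : (((max M 1 : ℕ) : ℝ) + 1) * (Real.exp ((a : ℝ) / b) - 1) ≤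
        2 * ((M : ℝ) + 1) * (Real.exp ((a : ℝ) / b) - 1) := mul_le_mul_of_nonneg_right hM2 hx
    have h2 : (s.card : ℝ) ≤ k := by
      refine (hs2.trans ?_).trans hk
      have h3 : C * ((((max M 1 : ℕ) : ℝ) + 1) * (Real.exp ((a : ℝ) / b) - 1) +
          Real.log (Real.log ((b : ℝ) + 2))) ≤
          C * (2 * ((M : ℝ) + 1) * (Real.exp ((a : ℝ) / b) - 1) +
          2 * Real.log (Real.log ((b : ℝ) + 2))) :=
        mul_le_mul_of_nonneg_left (by linarith) (by linarith)
      refine h3.trans (le_of_eq ?_)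
      ring
    exact_mod_cast h2
  obtain ⟨t, ht1, ht2, ht3⟩ := lengthen (m := max M 1 + 1) (by omega) hs1
    (fun n hn => hs3 n hn) (k - s.card)
  refine ⟨t, by omega, fun n hn => ?_, by rw [ht3, hs4]⟩
  have := ht2 n hn
  omega

theorem exp_lower (M K : ℕ) (hK : 1 ≤ K) {b : ℕ} (hb : 1 ≤ b) {s : Finset ℕ}
    (hs : IsExpansionAbove M (K * b) b s) :
    ((M : ℝ) + 1) * Real.exp K ≤ 4 * s.card := by
  have hbR : (b : ℝ) ≠ 0 := by
    have : b ≠ 0 := by omega
    exact_mod_cast this
  have hKR : (1 : ℝ) ≤ K := by exact_mod_cast hK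
  have hx : ((K * b : ℕ) : ℝ) / b = K := by
    push_cast
    field_simp
  have he : (2 : ℝ) ≤ Real.exp K := by
    have := Real.add_one_le_exp (K : ℝ)
    linarith
  rcases Nat.eq_zero_or_pos M with h0 | hM
  · subst h0
    have h3 : (K : ℝ) = ∑ n ∈ s, (1 : ℝ) / n := by
      rw [← cast_sum_one_div, hs.2, ← hx]
      push_cast
      rfl
    have h1 := sum_le_block 0 s.card s rfl hs.1
    have hc0 : 0 < s.card := by
      rcases Nat.eq_zero_or_pos s.card with h | h
      · rw [Finset.card_eq_zero] at h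
        rw [h, Finset.sum_empty] at h3
        linarith
      · exact h
    obtain ⟨k, hk⟩ := Nat.exists_eq_succ_of_ne_zero hc0.ne'
    have h2 := block_le_log (m := 1) le_rfl k
    have h4 : ∑ n ∈ Finset.Ico (0 + 1) (0 + 1 + s.card), (1 : ℝ) / n =
        1 + ∑ n ∈ Finset.Ico (1 + 1) (1 + 1 + k), (1 : ℝ) / n := by
      rw [hk]
      have h5 : 0 + 1 + k.succ = 1 + 1 + k := by omega
      rw [h5, Finset.sum_eq_sum_Ico_succ_bot (by omega)]
      simp
    rw [h4, ← h3] at h1
    have h6 : ((1 + k : ℕ) : ℝ) = s.card := by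
      rw [hk]; push_cast; ring
    rw [h6] at h2
    have h7 : (K : ℝ) ≤ 1 + Real.log s.card := by
      rw [Nat.cast_one, Real.log_one, sub_zero] at h2
      exact h1.trans (by gcongr)
    have hcR : (0 : ℝ) < s.card := by exact_mod_cast hc0
    have h8 := Real.exp_le_exp.2 h7
    rw [Real.exp_add, Real.exp_log hcR] at h8
    have h9 := Real.exp_one_lt_d9
    push_cast
    nlinarith
  · have h1 := lower_card hs
    rw [hx] at h1
    have hMR : (1 : ℝ) ≤ M := by exact_mod_cast hM
    nlinarith [mul_nonneg (by linarith : (0 : ℝ) ≤ (M : ℝ) - 1) (by linarith : (0:ℝ) ≤ Real.exp K - 2),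
      mul_nonneg (by linarith : (0 : ℝ) ≤ (M : ℝ) - 1) (by linarith : (0:ℝ) ≤ Real.exp K)]

/-- The order of growth in all three parameters. -/
theorem three_parameters (H : ∃ C : ℝ, ∃ b₀ : ℕ, ∀ b ≥ b₀, ∀ a : ℕ, a < b →
      ∃ k : ℕ, (k : ℝ) ≤ C * Real.log (Real.log b) ∧ IsUF k ((a : ℚ) / b)) :
    ∃ c C : ℝ, 0 < c ∧ ∀ M K b : ℕ, 1 ≤ K → 1 ≤ b →
      c * (((M : ℝ) + 1) * Real.exp K + Real.log (Real.log ((b : ℝ) + 2))) ≤
        maxTermsAbove M K b ∧
      (maxTermsAbove M K b : ℝ) ≤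
        C * (((M : ℝ) + 1) * Real.exp K + Real.log (Real.log ((b : ℝ) + 2))) := by
  classical
  obtain ⟨C, hC, hall⟩ := all_lengths H
  obtain ⟨l, hl0, hl1, hl⟩ := exists_loglog_ge
  have hmem : ∀ M a b : ℕ, 1 ≤ a → 1 ≤ b →
      ∃ s : Finset ℕ, s.card = numTermsAbove M a b ∧ IsExpansionAbove M a b s := by
    intro M a b ha hb
    obtain ⟨k, hk⟩ := exists_nat_ge
      (C * (((M : ℝ) + 1) * (Real.exp ((a : ℝ) / b) - 1) + Real.log (Real.log ((b : ℝ) + 2))))
    obtain ⟨s, hs, hs'⟩ := hall M a b k ha hb hk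
    exact Nat.sInf_mem (s := {k : ℕ | ∃ s : Finset ℕ, s.card = k ∧ IsExpansionAbove M a b s})
      ⟨k, s, hs, hs'⟩
  refine ⟨1 / 12, C + 1, by norm_num, fun M K b hK hb => ?_⟩
  have hbR : (1 : ℝ) ≤ b := by exact_mod_cast hb
  have hKR : (1 : ℝ) ≤ K := by exact_mod_cast hK
  have hL0 : 0 ≤ Real.log (Real.log ((b : ℝ) + 2)) := hl0.le.trans (hl b hb)
  have he : (2 : ℝ) ≤ Real.exp K := by
    have := Real.add_one_le_exp (K : ℝ)
    linarith
  have hM0 : (0 : ℝ) ≤ M := Nat.cast_nonneg _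
  have hME : (2 : ℝ) ≤ ((M : ℝ) + 1) * Real.exp K := by nlinarith
  constructor
  · obtain ⟨s, hs, hs'⟩ := hmem M (K * b) b (Nat.mul_pos (by omega) (by omega)) hb
    have h1 := exp_lower M K hK hb hs'
    have h2 : numTermsAbove M (K * b) b ≤ maxTermsAbove M K b :=
      Finset.le_sup (f := fun a => numTermsAbove M a b)
        (Finset.mem_Icc.2 ⟨Nat.mul_pos (by omega) (by omega), le_rfl⟩)
    have h3 : (s.card : ℝ) ≤ maxTermsAbove M K b := by rw [hs]; exact_mod_cast h2
    have h4 : 1 ≤ 2 * (maxTermsAbove M K b : ℝ) := by linarith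
    have h5 : Real.log (Real.log ((b : ℝ) + 2)) ≤ 5 * (maxTermsAbove M K b : ℝ) + 1 := by
      by_cases hb3 : 3 ≤ b
      · have h6 := loglog_le hb3
        have hb3R : (3 : ℝ) ≤ b := by exact_mod_cast hb3
        have hlog : Real.log (Real.log ((b : ℝ) + 2)) ≤ Real.log (Real.log (b : ℝ)) + 1 := by
          have h1 : Real.log ((b : ℝ) + 2) ≤ Real.log (b : ℝ) + 1 := by
            have h2 : (b : ℝ) + 2 ≤ b * Real.exp 1 := by
              have := Real.exp_one_gt_d9
              nlinarith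
            have h3 := Real.log_le_log (by positivity) h2
            rwa [Real.log_mul (by positivity) (Real.exp_pos 1).ne', Real.log_exp] at h3
          have h4 : 1 ≤ Real.log (b : ℝ) := by
            have h5 : Real.exp 1 ≤ (b : ℝ) := by
              have := Real.exp_one_lt_d9
              linarith
            have := Real.log_le_log (Real.exp_pos 1) h5
            rwa [Real.log_exp] at this
          have h5 : 0 < Real.log ((b : ℝ) + 2) := by
            have := one_le_log_add_two hb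
            linarith
          have h6 := Real.log_le_log h5 h1
          have h7 : Real.log (Real.log (b : ℝ) + 1) ≤ Real.log (Real.log (b : ℝ)) + 1 := by
            have h8 : Real.log (b : ℝ) + 1 ≤ Real.log (b : ℝ) * Real.exp 1 := by
              have := Real.exp_one_gt_d9
              nlinarith
            have h9 := Real.log_le_log (by linarith) h8
            rwa [Real.log_mul (by positivity) (Real.exp_pos 1).ne', Real.log_exp] at h9
          exact h6.trans h7
        -- every expansion of `(b-1)/b` has denominators at least `2`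
        obtain ⟨u, hu, hu'⟩ := hmem M (b - 1) b (by omega) hb
        have h7 : numTerms (b - 1) b ≤ numTermsAbove M (b - 1) b := by
          refine Nat.sInf_le ⟨?_, u, hu, ?_, hu'.2⟩
          · rcases Nat.eq_zero_or_pos (numTermsAbove M (b - 1) b) with h0 | h0
            · exfalso
              have h3 : u.card = 0 := hu.trans h0
              rw [Finset.card_eq_zero] at h3
              have h4 := hu'.2
              rw [h3, Finset.sum_empty] at h4
              have h5 : (0 : ℚ) < ((b - 1 : ℕ) : ℚ) / b := by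
                have h6 : 0 < b - 1 := by omega
                have h7 : 0 < b := by omega
                exact div_pos (by exact_mod_cast h6) (by exact_mod_cast h7)
              rw [← h4] at h5
              exact lt_irrefl _ h5
            · exact h0
          · intro n hn
            have h3 := hu'.1 n hn
            by_contra hlt
            have hn1 : n = 1 := by omega
            subst hn1
            have h4 : (1 : ℚ) / ((1 : ℕ) : ℚ) ≤ ((b - 1 : ℕ) : ℚ) / b := by
              rw [← hu'.2]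
              exact Finset.single_le_sum (f := fun n : ℕ => (1 : ℚ) / n)
                (fun i _ => by positivity) hn
            have hbQ : (0 : ℚ) < b := by
              have : 0 < b := by omega
              exact_mod_cast this
            rw [Nat.cast_one, div_one, le_div_iff₀ hbQ, one_mul] at h4
            have : b ≤ b - 1 := by exact_mod_cast h4
            omega
        have h8 : numTermsAbove M (b - 1) b ≤ maxTermsAbove M K b :=
          Finset.le_sup (f := fun a => numTermsAbove M a b)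
            (Finset.mem_Icc.2 ⟨by omega, (Nat.sub_le _ _).trans (Nat.le_mul_of_pos_left _ hK)⟩)
        have h9 : (numTerms (b - 1) b : ℝ) ≤ maxTermsAbove M K b := by exact_mod_cast h7.trans h8
        linarith
      · have hb2 : (b : ℝ) ≤ 2 := by
          have : b ≤ 2 := by omega
          exact_mod_cast this
        have h6 : Real.log ((b : ℝ) + 2) ≤ Real.exp 1 := by
          have := Real.log_le_sub_one_of_pos (x := (b : ℝ) + 2) (by positivity)
          have := Real.exp_one_gt_d9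
          have h7 : Real.log ((b : ℝ) + 2) ≤ Real.log 4 := Real.log_le_log (by positivity) (by linarith)
          have h8 : Real.log 4 = 2 * Real.log 2 := by
            rw [show (4 : ℝ) = 2 ^ 2 by norm_num, Real.log_pow]; norm_num
          have := Real.log_two_lt_d9
          linarith
        have h7 := Real.log_le_log (by have := one_le_log_add_two hb; linarith) h6
        rw [Real.log_exp] at h7
        have : (0 : ℝ) ≤ maxTermsAbove M K b := Nat.cast_nonneg _
        linarith
    linarith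
  · have hceil : maxTermsAbove M K b ≤
        ⌊(C + 1) * (((M : ℝ) + 1) * Real.exp K + Real.log (Real.log ((b : ℝ) + 2)))⌋₊ := by
      apply Finset.sup_le
      intro a ha
      rw [Finset.mem_Icc] at ha
      set k : ℕ := ⌊(C + 1) * (((M : ℝ) + 1) * Real.exp K +
        Real.log (Real.log ((b : ℝ) + 2)))⌋₊ with hk
      have hk1 : C * (((M : ℝ) + 1) * (Real.exp ((a : ℝ) / b) - 1) +
          Real.log (Real.log ((b : ℝ) + 2))) ≤ k := by
        have h1 := Nat.lt_floor_add_one ((C + 1) * (((M : ℝ) + 1) * Real.exp K +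
          Real.log (Real.log ((b : ℝ) + 2))))
        rw [← hk] at h1
        have h2 : Real.exp ((a : ℝ) / b) ≤ Real.exp K := by
          apply Real.exp_le_exp.2
          rw [div_le_iff₀ (by linarith)]
          exact_mod_cast ha.2
        have h3 : ((M : ℝ) + 1) * (Real.exp ((a : ℝ) / b) - 1) ≤ ((M : ℝ) + 1) * Real.exp K :=
          mul_le_mul_of_nonneg_left (by linarith) (by linarith)
        have h4 : C * (((M : ℝ) + 1) * (Real.exp ((a : ℝ) / b) - 1) +
            Real.log (Real.log ((b : ℝ) + 2))) ≤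
            C * (((M : ℝ) + 1) * Real.exp K + Real.log (Real.log ((b : ℝ) + 2))) :=
          mul_le_mul_of_nonneg_left (by linarith) (by linarith)
        have h5 : (C + 1) * (((M : ℝ) + 1) * Real.exp K + Real.log (Real.log ((b : ℝ) + 2))) =
            C * (((M : ℝ) + 1) * Real.exp K + Real.log (Real.log ((b : ℝ) + 2))) +
            (((M : ℝ) + 1) * Real.exp K + Real.log (Real.log ((b : ℝ) + 2))) := by ring
        rw [h5] at h1
        linarith
      obtain ⟨s, hs, hs'⟩ := hall M a b k ha.1 hb hk1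
      exact Nat.sInf_le ⟨s, hs, hs'⟩
    exact (Nat.cast_le.2 hceil).trans (Nat.floor_le (by positivity))

end Vale.Agent.P012
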